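import Vale.Agent.P272.K.Inv.Chart
import Mathlib.Analysis.SpecialFunctions.Complex.Analytic
import Mathlib.Analysis.Calculus.FDeriv.Analytic

/-!
# P284Z, block O, part 2: the operator `q dv - v dq`, its determinant and its adjugate
-/

open scoped Topology ContDiff
open Filter Set

noncomputable section

namespace Vale.Agent.P284Z.O

open Vale.Agent.P272.K

variable {n : ℕ}

/-- `q dv - v dq` -/
def AL (v : Cm n → Cm n) (q : Cm n → ℂ) (z : Cm n) : Cm n →L[ℂ] Cm n :=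
  q z • fderiv ℂ v z - (fderiv ℂ q z).smulRight (v z)

/-- the matrix of a continuous linear map -/
def mt (L : Cm n →L[ℂ] Cm n) : Matrix (Fin n) (Fin n) ℂ :=
  LinearMap.toMatrix' (L : Cm n →ₗ[ℂ] Cm n)

/-- the continuous linear map of a matrix -/
def cl (M : Matrix (Fin n) (Fin n) ℂ) : Cm n →L[ℂ] Cm n :=
  ∑ i, ∑ j, M i j • (ContinuousLinearMap.proj j : Cm n →L[ℂ] ℂ).smulRight (Pi.single i (1 : ℂ))

lemma mt_apply (L : Cm n →L[ℂ] Cm n) (i j : Fin n) : mt L i j = L (Pi.single j 1) i := by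
  unfold mt
  rw [LinearMap.toMatrix'_apply]
  rfl

lemma mt_comp (L L' : Cm n →L[ℂ] Cm n) : mt (L.comp L') = mt L * mt L' := by
  unfold mt
  rw [← LinearMap.toMatrix'_comp]
  rfl

lemma mt_smul (c : ℂ) (L : Cm n →L[ℂ] Cm n) : mt (c • L) = c • mt L := by
  ext i j
  simp [mt_apply]

lemma mt_id : mt (ContinuousLinearMap.id ℂ (Cm n)) = 1 := by
  unfold mt
  exact LinearMap.toMatrix'_id

lemma mt_inj {L L' : Cm n →L[ℂ] Cm n} (h : mt L = mt L') : L = L' :=
  ContinuousLinearMap.coe_injective (LinearMap.toMatrix'.injective h)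

lemma mt_cl (M : Matrix (Fin n) (Fin n) ℂ) : mt (cl M) = M := by
  ext i j
  simp [mt_apply, cl, Pi.single_apply, Finset.sum_apply]

lemma mt_fderiv {τ : Cm n → Cm n} {z : Cm n} (h : DifferentiableAt ℂ τ z) :
    mt (fderiv ℂ τ z) = jmat τ z := by
  ext i j
  rw [mt_apply, jmat_apply h]

lemma comp_adj (L : Cm n →L[ℂ] Cm n) :
    L.comp (cl (mt L).adjugate) = (mt L).det • ContinuousLinearMap.id ℂ (Cm n) := by
  apply mt_inj
  rw [mt_comp, mt_cl, mt_smul, mt_id, Matrix.mul_adjugate]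

section an
variable {M : Cm n → Matrix (Fin n) (Fin n) ℂ} {z : Cm n}

lemma an_det (h : ∀ i j, AnalyticAt ℂ (fun w => M w i j) z) :
    AnalyticAt ℂ (fun w => (M w).det) z := by
  simp only [Matrix.det_apply']
  exact Finset.analyticAt_fun_sum _ fun σ _ =>
    analyticAt_const.mul (Finset.analyticAt_fun_prod _ fun i _ => h _ _)

lemma an_adj (h : ∀ i j, AnalyticAt ℂ (fun w => M w i j) z) (i j : Fin n) :
    AnalyticAt ℂ (fun w => (M w).adjugate i j) z := by
  simp only [Matrix.adjugate_apply]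
  refine an_det fun k l => ?_
  by_cases hk : k = j
  · subst hk
    simp only [Matrix.updateRow_self]
    exact analyticAt_const
  · simp only [Matrix.updateRow_ne hk]
    exact h k l

lemma an_cl (h : ∀ i j, AnalyticAt ℂ (fun w => M w i j) z) :
    AnalyticAt ℂ (fun w => cl (M w)) z :=
  Finset.analyticAt_fun_sum _ fun i _ => Finset.analyticAt_fun_sum _ fun j _ =>
    (h i j).smul analyticAt_const

end an

variable {v v' : Cm n → Cm n} {q q' : Cm n → ℂ} {z : Cm n}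

lemma an_AL (hv : AnalyticAt ℂ v z) (hq : AnalyticAt ℂ q z) (i j : Fin n) :
    AnalyticAt ℂ (fun w => mt (AL v q w) i j) z := by
  have h1 : AnalyticAt ℂ (fun w => fderiv ℂ v w (Pi.single j 1) i) z := by
    have h2 : ContDiffAt ℂ ω (fun w => fderiv ℂ v w (Pi.single j 1)) z :=
      hv.fderiv.contDiffAt.clm_apply contDiffAt_const
    exact (contDiffAt_pi.1 h2 i).analyticAt
  have h2 : AnalyticAt ℂ (fun w => fderiv ℂ q w (Pi.single j 1)) z :=
    (hq.fderiv.contDiffAt.clm_apply contDiffAt_const : ContDiffAt ℂ ω _ z).analyticAt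
  have h3 : AnalyticAt ℂ (fun w => v w i) z := (contDiffAt_pi.1 (hv.contDiffAt (n := ω)) i).analyticAt
  refine ((hq.mul h1).sub (h2.mul h3)).congr (Eventually.of_forall fun w => ?_)
  simp [mt_apply, AL]

lemma AL_ch {τ : Cm n → Cm n} {t : Cm n → ℂ} (hτ : DifferentiableAt ℂ τ z)
    (ht : DifferentiableAt ℂ t z) (hv' : DifferentiableAt ℂ v' (τ z))
    (hq' : DifferentiableAt ℂ q' (τ z)) (hv : v =ᶠ[𝓝 z] fun w => t w • v' (τ w))
    (hq : q =ᶠ[𝓝 z] fun w => t w * q' (τ w)) :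
    AL v q z = t z ^ 2 • (AL v' q' (τ z)).comp (fderiv ℂ τ z) := by
  have h1 := ht.hasFDerivAt.smul (hv'.hasFDerivAt.comp z hτ.hasFDerivAt)
  have h2 := ht.hasFDerivAt.mul (hq'.hasFDerivAt.comp z hτ.hasFDerivAt)
  have h3 : fderiv ℂ v z = _ := hv.fderiv_eq.trans h1.fderiv
  have h4 : fderiv ℂ q z = _ := hq.fderiv_eq.trans h2.fderiv
  unfold AL
  rw [h3, h4, hv.eq_of_nhds, hq.eq_of_nhds]
  ext u i
  simp
  ring

lemma fderiv_quot (hv : DifferentiableAt ℂ v z) (hq : DifferentiableAt ℂ q z) (h0 : q z ≠ 0) :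
    fderiv ℂ (fun w => (q w)⁻¹ • v w) z = ((q z) ^ 2)⁻¹ • AL v q z := by
  have h1 := ((hasFDerivAt_inv h0).comp z hq.hasFDerivAt).smul hv.hasFDerivAt
  have h2 : fderiv ℂ (fun w => (q w)⁻¹ • v w) z = _ := h1.fderiv
  rw [h2]
  unfold AL
  ext u i
  simp
  field_simp
  ring

lemma log_re {g : Cm n → ℂ} (hg : AnalyticAt ℂ g z) (h0 : g z ≠ 0) :
    ∃ h : Cm n → ℂ, AnalyticAt ℂ h z ∧ ∀ᶠ w in 𝓝 z, Real.log (‖g w‖ ^ 2) = (h w).re := by
  have h1 : AnalyticAt ℂ (fun w => g w / g z) z := hg.div analyticAt_const h0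
  have h2 : AnalyticAt ℂ (fun w => Complex.log (g w / g z)) z :=
    h1.clog (by rw [div_self h0]; exact Complex.one_mem_slitPlane)
  refine ⟨fun w => 2 * Complex.log (g w / g z) + (Real.log (‖g z‖ ^ 2) : ℝ),
    (analyticAt_const.mul h2).add analyticAt_const, ?_⟩
  filter_upwards [hg.continuousAt.eventually_ne h0] with w hw
  have h3 : ‖g w‖ ≠ 0 := norm_ne_zero_iff.2 hw
  have h4 : ‖g z‖ ≠ 0 := norm_ne_zero_iff.2 h0
  have h5 : (2 * Complex.log (g w / g z)).re = 2 * (Complex.log (g w / g z)).re := by simp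
  rw [Complex.add_re, Complex.ofReal_re, h5, Complex.log_re, norm_div, Real.log_div h3 h4,
    Real.log_pow, Real.log_pow]
  push_cast
  ring

end Vale.Agent.P284Z.O
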