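import Vale.Agent.P284Z.SpecX
import Vale.Agent.P284.H977.Pi1
import Vale.Agent.P284.H446.QC

/-!
# P284Z, block O, part 1: the Galois covering, properness, finite generation, pieces
-/

open scoped Manifold ContDiff Topology
open Filter Set Metric

noncomputable section

namespace Vale.Agent.P284Z.O

open Vale.Agent.P272.K Vale.Agent.P284.H894.G Vale.Agent.P284.H998

section
variable {X E Γ : Type} [TopologicalSpace X] [TopologicalSpace E] [Group Γ] [MulAction Γ E]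
  {p : E → X}

lemma p_smul (hp : IsGalois Γ p) (g : Γ) (y : E) : p (g • y) = p y :=
  ((hp.orb _ _).2 ⟨g, rfl⟩).symm

lemma t2_of_gal [T2Space X] (hp : IsGalois Γ p) : T2Space E := by
  refine ⟨fun y y' h => ?_⟩
  by_cases h1 : p y = p y'
  · exact hp.cov.isSeparatedMap y y' h1 h
  · obtain ⟨A, B, hA, hB, hy, hy', hAB⟩ := t2_separation h1
    exact ⟨p ⁻¹' A, p ⁻¹' B, hA.preimage hp.cov.continuous, hB.preimage hp.cov.continuous, hy, hy',
      hAB.preimage _⟩

lemma loc_fin [T2Space X] (hp : IsGalois Γ p) (q : E × E) :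
    ∃ W ∈ 𝓝 q, {γ : Γ | ∃ y, (y, γ • y) ∈ W}.Finite := by
  obtain ⟨y, y'⟩ := q
  by_cases h : p y = p y'
  · obtain ⟨g, hg⟩ := (hp.orb _ _).1 h
    obtain ⟨f, hf, hfp⟩ := hp.cov.isLocalHomeomorph y
    have h1 : (fun u : E => g⁻¹ • u) ⁻¹' f.source ∈ 𝓝 y' := by
      refine (f.open_source.preimage (hp.cont _)).mem_nhds ?_
      show g⁻¹ • y' ∈ f.source
      rw [← hg, inv_smul_smul]
      exact hf
    refine ⟨_, prod_mem_nhds (f.open_source.mem_nhds hf) h1, (finite_singleton g).subset ?_⟩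
    rintro γ ⟨u, hu, hu'⟩
    have h2 : g⁻¹ • γ • u ∈ f.source := hu'
    have h3 : g⁻¹ • γ • u = u := by
      refine f.injOn h2 hu ?_
      rw [← hfp, p_smul hp, p_smul hp]
    rw [← mul_smul] at h3
    exact (inv_mul_eq_one.1 (hp.free _ _ h3)).symm
  · obtain ⟨A, B, hA, hB, hy, hy', hAB⟩ := t2_separation h
    refine ⟨_, prod_mem_nhds ((hA.preimage hp.cov.continuous).mem_nhds hy)
      ((hB.preimage hp.cov.continuous).mem_nhds hy'), finite_empty.subset ?_⟩
    rintro γ ⟨u, hu, hu'⟩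
    have h2 : p (γ • u) ∈ B := hu'
    rw [p_smul hp] at h2
    exact (Set.disjoint_left.1 hAB hu h2).elim

lemma proper_of_gal [T2Space X] (hp : IsGalois Γ p) (K : Set E) (hK : IsCompact K) :
    {γ : Γ | ∃ y ∈ K, γ • y ∈ K}.Finite := by
  choose W hW hfin using loc_fin hp
  obtain ⟨t, -, ht⟩ := (hK.prod hK).elim_nhds_subcover W fun q _ => hW q
  refine (t.finite_toSet.biUnion fun q _ => hfin q).subset ?_
  rintro γ ⟨y, hy, hy'⟩
  have h1 := ht (show (y, γ • y) ∈ K ×ˢ K from ⟨hy, hy'⟩)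
  simp only [mem_iUnion] at h1 ⊢
  obtain ⟨q, hq, h2⟩ := h1
  exact ⟨q, hq, y, h2⟩

end

/-- the Galois covering of a quotient of the fundamental group -/
theorem exists_gal {n : ℕ} (X : Type) [TopologicalSpace X] [T2Space X] [CompactSpace X]
    [ConnectedSpace X] [ChartedSpace (Cm n) X] (x : X) (Γ : Type) [Group Γ]
    (f : FundamentalGroup X x →* Γ) (hf : Function.Surjective f) :
    ∃ (E : Type) (_ : TopologicalSpace E) (_ : ConnectedSpace E) (_ : MulAction Γ E) (p : E → X),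
      IsGalois Γ p := by
  obtain ⟨Y, G, tY, hsc, gG, aG, π, e, hG⟩ := Vale.Agent.P284.H977.exists_uc (n := n) X x
  obtain ⟨E, tE, aE, pr, p, hp, hc, hs, -⟩ := Vale.Agent.P284.H446.QC.exists_quot hG
    (f.comp e.symm.toMonoidHom) (hf.comp e.symm.surjective)
  exact ⟨E, tE, hs.connectedSpace hc, aE, p, hp⟩

/-- finite generation -/
theorem fg_of_cov {n : ℕ} {Γ E : Type} [Group Γ] [TopologicalSpace E] [ConnectedSpace E]
    [MulAction Γ E] (C : Cov n Γ E) : Group.FG Γ := by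
  set U : Set E := ⋃ a, (C.e a).symm '' ball (C.c a) (C.r a) with hU
  set K : Set E := ⋃ a, (C.e a).symm '' closedBall (C.c a) (C.r a) with hK
  have hsub : ∀ a, closedBall (C.c a) (C.r a) ⊆ (C.e a).target := fun a => by
    rw [C.tgt]
    exact closedBall_subset_ball (by linarith [C.r_pos a])
  have hUo : IsOpen U := isOpen_iUnion fun a =>
    (C.e a).symm.isOpen_image_of_subset_source isOpen_ball (ball_subset_closedBall.trans (hsub a))
  have hKc : IsCompact K := isCompact_iUnion fun a =>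
    (isCompact_closedBall _ _).image_of_continuousOn ((C.e a).continuousOn_symm.mono (hsub a))
  have hUK : U ⊆ K := iUnion_mono fun a => image_mono ball_subset_closedBall
  have hcov : ∀ y : E, ∃ g : Γ, g • y ∈ U := fun y => by
    obtain ⟨γ, a, z, hz, rfl⟩ := C.cover y
    exact ⟨γ⁻¹, by rw [inv_smul_smul]; exact mem_iUnion.2 ⟨a, z, hz, rfl⟩⟩
  set S := {γ : Γ | ∃ y ∈ K, γ • y ∈ K} with hS
  set H := Subgroup.closure S with hH
  have hop : ∀ T : Set Γ, IsOpen {y : E | ∃ g ∈ T, g • y ∈ U} := fun T => by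
    have : {y : E | ∃ g ∈ T, g • y ∈ U} = ⋃ g ∈ T, (fun y : E => g • y) ⁻¹' U := by
      ext y; simp
    rw [this]
    exact isOpen_biUnion fun g _ => hUo.preimage (C.cont g)
  have hkey : ∀ (g h : Γ) (y : E), g • y ∈ U → h • y ∈ U → h ∈ H → g ∈ H := by
    intro g h y hg hh hH'
    have h1 : g * h⁻¹ ∈ S := ⟨h • y, hUK hh, by rw [mul_smul, inv_smul_smul]; exact hUK hg⟩
    have h2 := H.mul_mem (Subgroup.subset_closure h1) hH'
    rwa [inv_mul_cancel_right] at h2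
  have hcl : IsClopen {y : E | ∃ g ∈ (H : Set Γ), g • y ∈ U} := by
    refine ⟨?_, hop _⟩
    rw [← isOpen_compl_iff]
    have : {y : E | ∃ g ∈ (H : Set Γ), g • y ∈ U}ᶜ = {y : E | ∃ g ∈ (H : Set Γ)ᶜ, g • y ∈ U} := by
      ext y
      constructor
      · intro hy
        obtain ⟨g, hg⟩ := hcov y
        exact ⟨g, fun h => hy ⟨g, h, hg⟩, hg⟩
      · rintro ⟨g, hg, hgy⟩ ⟨h, hh, hhy⟩
        exact hg (hkey g h y hgy hhy hh)
    rw [this]
    exact hop _
  obtain ⟨y₀⟩ : Nonempty E := inferInstance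
  obtain ⟨g₀, hg₀⟩ := hcov y₀
  have huniv := hcl.eq_univ ⟨g₀ • y₀, 1, H.one_mem, by rwa [one_smul]⟩
  refine Group.fg_iff.2 ⟨S, ?_, C.proper K hKc⟩
  rw [eq_top_iff]
  intro g _
  have h1 : g⁻¹ • g₀ • y₀ ∈ {y : E | ∃ g ∈ (H : Set Γ), g • y ∈ U} := by rw [huniv]; trivial
  obtain ⟨h, hh, hhy⟩ := h1
  exact hkey g h _ (by rwa [smul_inv_smul]) hhy hh

section
variable {n : ℕ} {X : Type} [TopologicalSpace X] [ChartedSpace (Cm n) X] {ι : Type} [Fintype ι]
  {E : Type} [TopologicalSpace E]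

/-- a polydisc chart of the covering, lifted from a chart of `X` on which `Z i` does not vanish -/
structure Pc (D : PJ n X ι) (p : E → X) where
  h : OpenPartialHomeomorph E (Cm n)
  e : Chart n X
  i : ι
  c : Cm n
  r : ℝ
  r_pos : 0 < r
  tgt : h.target = ball c (4 * r)
  ov : ∀ y ∈ h.source, At e (p y) ∧ h y = e (p y) ∧ D.Z (p y) i ≠ 0

variable {D : PJ n X ι} {p : E → X}

lemma Pc.key (P : Pc D p) {z : Cm n} (hz : z ∈ ball P.c (4 * P.r)) :
    At P.e (p (P.h.symm z)) ∧ P.e (p (P.h.symm z)) = z ∧ P.e.symm z = p (P.h.symm z) ∧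
      D.Z (p (P.h.symm z)) P.i ≠ 0 := by
  rw [← P.tgt] at hz
  obtain ⟨h1, h2, h3⟩ := P.ov _ (P.h.map_target hz)
  rw [P.h.right_inv hz] at h2
  refine ⟨h1, h2.symm, ?_, h3⟩
  conv_lhs => rw [h2]
  exact h1.left_inv

lemma exists_pc (D : PJ n X ι) (hp : IsLocalHomeomorph p) (y : E) :
    ∃ P : Pc D p, At P.e (p y) ∧ P.e (p y) = P.c := by
  obtain ⟨f, hf, hfp⟩ := hp y
  obtain ⟨i, hi⟩ : ∃ i, D.Z (p y) i ≠ 0 := by
    by_contra h
    push Not at h
    exact D.ne _ (funext h)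
  set e : Chart n X := chartAt (Cm n) (p y) with he
  have hat : At e (p y) := ⟨chart_mem_atlas _ _, mem_chart_source _ _⟩
  set h := (f.trans e).restrOpen (p ⁻¹' {x | D.Z x i ≠ 0}) ((D.opn i).preimage hp.continuous)
    with hh
  have hsrc : ∀ u, u ∈ h.source ↔ (u ∈ f.source ∧ p u ∈ e.source) ∧ D.Z (p u) i ≠ 0 := by
    intro u
    rw [hh, OpenPartialHomeomorph.restrOpen_source, OpenPartialHomeomorph.trans_source, ← hfp]
    rfl
  have happ : ∀ u, h u = e (p u) := fun u => by rw [hfp]; rfl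
  have hy : y ∈ h.source := (hsrc y).2 ⟨⟨hf, hat.2⟩, hi⟩
  obtain ⟨R, hR, hRs⟩ := Metric.isOpen_iff.1 h.open_target _ (h.map_source hy)
  rw [happ] at hRs
  refine ⟨⟨(h.symm.restrOpen (ball (e (p y)) R) isOpen_ball).symm, e, i, e (p y), R / 4,
    by positivity, ?_, ?_⟩, hat, rfl⟩
  · show h.target ∩ ball (e (p y)) R = _
    rw [inter_eq_right.2 hRs]
    congr 1
    ring
  · intro u hu
    have h1 : u ∈ h.source := hu.1
    obtain ⟨⟨-, h2⟩, h3⟩ := (hsrc u).1 h1
    exact ⟨⟨hat.1, h2⟩, happ u, h3⟩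

lemma exists_pcs [CompactSpace X] (D : PJ n X ι) (hp : IsLocalHomeomorph p)
    (hs : Function.Surjective p) :
    ∃ (I : Type) (_ : Fintype I) (P : I → Pc D p),
      ∀ x : X, ∃ a, ∃ z ∈ ball (P a).c (P a).r, x = p ((P a).h.symm z) := by
  have h1 : ∀ x : X, ∃ P : Pc D p, At P.e x ∧ P.e x = P.c := fun x => by
    obtain ⟨y, rfl⟩ := hs x
    exact exists_pc D hp y
  choose P hP hPc using h1
  have h2 : ∀ x : X, (P x).e.source ∩ (P x).e ⁻¹' ball (P x).c (P x).r ∈ 𝓝 x := fun x => by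
    refine ((P x).e.isOpen_inter_preimage isOpen_ball).mem_nhds ⟨(hP x).2, ?_⟩
    rw [mem_preimage, hPc]
    exact mem_ball_self (P x).r_pos
  obtain ⟨t, ht⟩ := CompactSpace.elim_nhds_subcover _ h2
  refine ⟨t, inferInstance, fun a => P a, fun x => ?_⟩
  have h3 : x ∈ ⋃ a ∈ t, (P a).e.source ∩ (P a).e ⁻¹' ball (P a).c (P a).r := by
    rw [ht]; trivial
  simp only [mem_iUnion] at h3
  obtain ⟨a, ha, h4, h5⟩ := h3
  refine ⟨⟨a, ha⟩, (P a).e x, h5, ?_⟩
  have h6 : (P a).e x ∈ ball (P a).c (4 * (P a).r) :=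
    ball_subset_ball (by linarith [(P a).r_pos]) h5
  show x = p ((P a).h.symm ((P a).e x))
  rw [← ((P a).key h6).2.2.1, (P a).e.left_inv h4]

end

end Vale.Agent.P284Z.O
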