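import Vale.Agent.P284Z.O.Alg
import Vale.Agent.P284.H212.Pos

/-!
# P284Z, block O, part 3: the section `det (q dv - v dq) q ^ (b + 1)` of `K_X + (2 n + b + 1) A`
-/

open scoped Manifold ContDiff Topology ComplexOrder
open Filter Set Metric

noncomputable section

namespace Vale.Agent.P284Z.O

open Vale.Agent.P272.K Vale.Agent.P284.H998 Vale.Agent.P284.H212 Vale.Agent.P299.H908

variable {n : ℕ} {X : Type} [TopologicalSpace X] [ChartedSpace (Cm n) X]
  {ι : Type} [Fintype ι] (D : PJ n X ι)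

/-- linear forms, the degree, the weight -/
structure Dat (n : ℕ) (X : Type) [TopologicalSpace X] (ι : Type) where
  a : Fin n → ι → ℂ
  i₀ : ι
  b : ℕ
  w : Chart n X → Cm n → ℝ
  c : ℝ

variable (T : Dat n X ι)

/-- the numerators -/
def vv (e : Chart n X) (i : ι) (z : Cm n) : Cm n := fun k => D.sig (T.a k) i (e.symm z)

/-- the section -/
def SS (e : Chart n X) (i : ι) (z : Cm n) : ℂ :=
  (mt (AL (vv D T e i) (D.u e i T.i₀) z)).det * D.u e i T.i₀ z ^ (T.b + 1)

/-- the weight -/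
def RR (e : Chart n X) (i : ι) (z : Cm n) : ℝ :=
  T.w e z + ((2 * n + T.b + 1 : ℕ) : ℝ) * Real.log (∑ j, ‖D.u e i j z‖ ^ 2) + T.c

/-- the transition function -/
def GG (e : Chart n X) (i : ι) (e' : Chart n X) (i' : ι) (z : Cm n) : ℂ :=
  D.u e i i' z ^ (2 * n + T.b + 1) * (jacM e e' (e.symm z)).det

/-- an index of a nonzero coordinate -/
def ix (x : X) : ι := Classical.choose (D.exists_ne x)

lemma ix_ne (x : X) : D.Z x (ix D x) ≠ 0 := Classical.choose_spec (D.exists_ne x)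

/-- the norm of the section -/
def sg (x : X) : ℝ :=
  ‖SS D T (chartAt (Cm n) x) (ix D x) (chartAt (Cm n) x x)‖ ^ 2 *
    Real.exp (-RR D T (chartAt (Cm n) x) (ix D x) (chartAt (Cm n) x x))

variable {e e' : Chart n X} {i i' : ι} {x : X}

lemma vv_an (he : At e x) (hi : D.Z x i ≠ 0) : AnalyticAt ℂ (vv D T e i) (e x) :=
  analyticAt_pi_iff.2 fun k => D.sig_hol (T.a k) hi e he

lemma SS_an (he : At e x) (hi : D.Z x i ≠ 0) : AnalyticAt ℂ (SS D T e i) (e x) :=
  (an_det (an_AL (vv_an D T he hi) (D.u_an he hi _))).mul ((D.u_an he hi _).pow _)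

lemma u_at (he : At e x) (j : ι) : D.u e i j (e x) = D.Z x j / D.Z x i := by
  unfold PJ.u
  rw [he.left_inv]

variable [IsManifold 𝓘(ℂ, Cm n) ω X]

lemma GG_an (he : At e x) (he' : At e' x) (hi : D.Z x i ≠ 0) :
    AnalyticAt ℂ (GG D T e i e' i') (e x) :=
  ((D.u_an he hi _).pow _).mul (jacM_det_holo he he').analyticAt

lemma GG_ne (he : At e x) (he' : At e' x) (hi : D.Z x i ≠ 0) (hi' : D.Z x i' ≠ 0) :
    GG D T e i e' i' (e x) ≠ 0 := by
  unfold GG
  rw [u_at D he, he.left_inv]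
  exact mul_ne_zero (pow_ne_zero _ (div_ne_zero hi' hi)) (jacM_det_ne_zero he he')

lemma SS_ch (he : At e x) (he' : At e' x) (hi : D.Z x i ≠ 0) (hi' : D.Z x i' ≠ 0) :
    SS D T e i (e x) = GG D T e i e' i' (e x) * SS D T e' i' (e' x) := by
  have hτ := transition_differentiableAt he he'
  have h0 : e' (e.symm (e x)) = e' x := by rw [he.left_inv]
  have hev : ∀ᶠ z in 𝓝 (e x), At e' (e.symm z) ∧ D.Z (e.symm z) i' ≠ 0 := by
    filter_upwards [he.nhds_at he', (tendsto_symm he).eventually ((D.opn i').mem_nhds hi')]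
      with z hz hz'
    exact ⟨hz.2.2, hz'⟩
  have h1 := AL_ch (v := vv D T e i) (q := D.u e i T.i₀) (v' := vv D T e' i')
    (q' := D.u e' i' T.i₀) (t := D.u e i i') hτ (D.u_an he hi i').differentiableAt
    (by rw [h0]; exact (vv_an D T he' hi').differentiableAt)
    (by rw [h0]; exact (D.u_an he' hi' _).differentiableAt)
    (by
      filter_upwards [hev] with z hz
      funext k
      show D.sig (T.a k) i (e.symm z) =
        D.u e i i' z * D.sig (T.a k) i' (e'.symm (e' (e.symm z)))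
      rw [hz.1.left_inv, D.sig_trans (T.a k) (i' := i) hz.2, mul_comm]
      rfl)
    (by
      filter_upwards [hev] with z hz
      rw [u_at D hz.1]
      unfold PJ.u
      rw [mul_comm, div_mul_div_cancel₀ hz.2])
  unfold SS GG
  rw [h1, mt_smul, mt_comp, mt_fderiv hτ, Matrix.det_smul, Matrix.det_mul, h0, he.left_inv,
    jacM_eq, u_at D he, u_at D he, u_at D he', Fintype.card_fin]
  have h2 : D.Z x T.i₀ / D.Z x i = D.Z x i' / D.Z x i * (D.Z x T.i₀ / D.Z x i') := by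
    rw [mul_comm, div_mul_div_cancel₀ hi']
  rw [h2]
  ring

lemma RR_ch (hw : IsCanonicalMetric T.w) (he : At e x) (he' : At e' x) (hi : D.Z x i ≠ 0)
    (hi' : D.Z x i' ≠ 0) :
    RR D T e i (e x) = RR D T e' i' (e' x) + Real.log (‖GG D T e i e' i' (e x)‖ ^ 2) := by
  have h1 : ∀ k, D.u e i k (e x) = D.u e' i' k (e' x) * (D.Z x i' / D.Z x i) := by
    intro k
    rw [u_at D he, u_at D he', div_mul_div_cancel₀ hi']
  have h2 : 0 < ∑ k, ‖D.u e' i' k (e' x)‖ ^ 2 := sumu_pos D (by rwa [he'.left_inv])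
  have h3 : ‖D.Z x i' / D.Z x i‖ ≠ 0 := norm_ne_zero_iff.2 (div_ne_zero hi' hi)
  have h4 : ‖(jacM e e' x).det‖ ≠ 0 := norm_ne_zero_iff.2 (jacM_det_ne_zero he he')
  have h5 : ∑ k, ‖D.u e i k (e x)‖ ^ 2 =
      (∑ k, ‖D.u e' i' k (e' x)‖ ^ 2) * ‖D.Z x i' / D.Z x i‖ ^ 2 := by
    rw [Finset.sum_mul]
    refine Finset.sum_congr rfl fun k _ => ?_
    rw [h1, norm_mul, mul_pow]
  unfold RR GG
  rw [hw.change e e' x he he', h5, Real.log_mul h2.ne' (pow_ne_zero _ h3), u_at D he, he.left_inv,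
    norm_mul, norm_pow, mul_pow, Real.log_mul (pow_ne_zero _ (pow_ne_zero _ h3)) (pow_ne_zero _ h4)]
  simp only [Real.log_pow]
  ring

lemma RR_sm (hw : IsCanonicalMetric T.w) (he : At e x) (hi : D.Z x i ≠ 0) :
    ContDiffAt ℝ ∞ (RR D T e i) (e x) :=
  ((hw.smooth e x he).add (contDiffAt_const.mul (contDiffAt_logu D he hi))).add contDiffAt_const

lemma RR_hess (hw : IsCanonicalMetric T.w) (he : At e x) (hi : D.Z x i ≠ 0) :
    cHess (RR D T e i) (e x) =
      cHess (T.w e) (e x) + (((2 * n + T.b + 1 : ℕ) : ℝ) : ℂ) • pjFS D e (e x) := by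
  have h1 : ContDiffAt ℝ 2 (T.w e) (e x) := (hw.smooth e x he).of_le INT.two_le_inf
  have h2 := (contDiffAt_logu D he hi).of_le INT.two_le_inf
  unfold RR
  rw [cHess_add (h1.add (contDiffAt_const.mul h2)) contDiffAt_const,
    cHess_add h1 (contDiffAt_const.mul h2), cHess_const_mul _ h2, C2.cHess_const, add_zero,
    pjFS_eq D he hi]

lemma sg_eq (hw : IsCanonicalMetric T.w) (he : At e x) (hi : D.Z x i ≠ 0) :
    sg D T x = ‖SS D T e i (e x)‖ ^ 2 * Real.exp (-RR D T e i (e x)) := by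
  have he' := at_chartAt' (n := n) x
  have hi' := ix_ne D x
  have h0 := GG_ne D T he he' hi hi'
  have h1 : 0 < ‖GG D T e i (chartAt (Cm n) x) (ix D x) (e x)‖ ^ 2 := by positivity
  unfold sg
  rw [SS_ch D T he he' hi hi', RR_ch D T hw he he' hi hi', neg_add, Real.exp_add, Real.exp_neg
    (Real.log _), Real.exp_log h1, norm_mul, mul_pow]
  field_simp

lemma sg_ev (hw : IsCanonicalMetric T.w) (he : At e x) (hi : D.Z x i ≠ 0) :
    ∀ᶠ y in 𝓝 x, sg D T y = ‖SS D T e i (e y)‖ ^ 2 * Real.exp (-RR D T e i (e y)) := by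
  filter_upwards [e.open_source.mem_nhds he.2, (D.opn i).mem_nhds hi] with y hy hy'
  exact sg_eq D T hw ⟨he.1, hy⟩ hy'

lemma sg_cont (hw : IsCanonicalMetric T.w) : Continuous (sg D T) := by
  refine continuous_iff_continuousAt.2 fun x => ?_
  have he := at_chartAt' (n := n) x
  have hi := ix_ne D x
  have h1 : ContinuousAt (chartAt (Cm n) x) x := (chartAt (Cm n) x).continuousAt he.2
  have h2 := (SS_an D T he hi).continuousAt.comp h1
  have h3 := (RR_sm D T hw he hi).continuousAt.comp h1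
  refine ContinuousAt.congr ?_ (EventuallyEq.symm (sg_ev D T hw he hi))
  exact (h2.norm.pow 2).mul (Real.continuous_exp.continuousAt.comp h3.neg)

lemma sg_zero (hw : IsCanonicalMetric T.w) (he : At e x) (hi : D.Z x i ≠ 0) :
    sg D T x = 0 ↔ SS D T e i (e x) = 0 := by
  rw [sg_eq D T hw he hi, mul_eq_zero]
  simp

lemma sg_freq [ConnectedSpace X] (hw : IsCanonicalMetric T.w) {x₀ : X} (h₀ : sg D T x₀ ≠ 0)
    (x : X) : ¬ ∀ᶠ y in 𝓝 x, sg D T y = 0 := by
  have hcl : IsClopen {x : X | ∀ᶠ y in 𝓝 x, sg D T y = 0} := by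
    refine ⟨isClosed_of_closure_subset fun x hx => ?_, isOpen_setOfPred_eventually_nhds⟩
    have he := at_chartAt' (n := n) x
    have hi := ix_ne D x
    set e : Chart n X := chartAt (Cm n) x
    obtain ⟨R, hR, hB⟩ := Metric.eventually_nhds_iff_ball.1 (D.nhds_u he hi)
    have hU : e.source ∩ e ⁻¹' ball (e x) R ∈ 𝓝 x :=
      (e.isOpen_inter_preimage isOpen_ball).mem_nhds ⟨he.2, mem_ball_self hR⟩
    obtain ⟨y, ⟨hy1, hy2⟩, hy3⟩ := mem_closure_iff_nhds.1 hx _ hU
    have han : AnalyticOnNhd ℂ (SS D T e (ix D x)) (ball (e x) R) := fun z hz => by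
      have := SS_an D T (hB z hz).2.1 (hB z hz).2.2
      rwa [e.right_inv (hB z hz).1] at this
    have hy4 : At e y := ⟨he.1, hy1⟩
    have h0 : SS D T e (ix D x) =ᶠ[𝓝 (e y)] 0 := by
      filter_upwards [(tendsto_symm hy4).eventually hy3, isOpen_ball.mem_nhds hy2] with z hz hz'
      have := (sg_zero D T hw (hB z hz').2.1 (hB z hz').2.2).1 hz
      rwa [e.right_inv (hB z hz').1] at this
    have h1 := han.eqOn_zero_of_preconnected_of_eventuallyEq_zero (convex_ball _ _).isPreconnected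
      hy2 h0
    filter_upwards [hU, (D.opn _).mem_nhds hi] with u hu hu'
    exact (sg_zero D T hw ⟨he.1, hu.1⟩ hu').2 (h1 hu.2)
  intro hx
  have h2 := hcl.eq_univ ⟨x, hx⟩
  have h3 : x₀ ∈ {x : X | ∀ᶠ y in 𝓝 x, sg D T y = 0} := by rw [h2]; trivial
  have h4 : ∀ᶠ y in 𝓝 x₀, sg D T y = 0 := h3
  exact h₀ h4.self_of_nhds

/-- the data -/
theorem exists_dat [CompactSpace X] [ConnectedSpace X] :
    ∃ T : Dat n X ι, IsCanonicalMetric T.w ∧
      (∀ e x i, At e x → D.Z x i ≠ 0 → (cHess (RR D T e i) (e x)).PosDef) ∧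
      (∀ x, ¬ ∀ᶠ y in 𝓝 x, sg D T y = 0) ∧ ∀ x, sg D T x < 1 := by
  obtain ⟨x₀⟩ : Nonempty X := inferInstance
  have he := at_chartAt' (n := n) x₀
  have hi := ix_ne D x₀
  set e : Chart n X := chartAt (Cm n) x₀
  choose a ha using fun k : Fin n => D.jets he hi 0 (ContinuousLinearMap.proj k)
  obtain ⟨t, ht⟩ := AMP.Main.exists_pos (pjFS_isKahler D)
  obtain ⟨b, hb⟩ := exists_nat_ge t
  obtain ⟨w, hw, hpos⟩ := ht.mono (pjFS_isKahler D).toIsHermitian
    (t := ((2 * n + b + 1 : ℕ) : ℝ)) (hb.trans (by exact_mod_cast (by omega)))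
  obtain ⟨M, hM⟩ := (isCompact_range (sg_cont D ⟨a, ix D x₀, b, w, 0⟩ hw)).bddAbove
  refine ⟨⟨a, ix D x₀, b, w, M⟩, hw, fun e x i he hi => ?_, fun x => ?_, fun x => ?_⟩
  · rw [RR_hess D _ hw he hi]
    exact hpos e x he
  · refine sg_freq D _ hw (x₀ := x₀) (fun h => ?_) x
    rw [sg_zero D _ hw he hi] at h
    have h1 : D.u e (ix D x₀) (ix D x₀) =ᶠ[𝓝 (e x₀)] fun _ => (1 : ℂ) := by
      filter_upwards [D.nhds_u he hi] with z hz
      exact div_self hz.2.2
    have h2 : fderiv ℂ (vv D ⟨a, ix D x₀, b, w, M⟩ e (ix D x₀)) (e x₀) =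
        ContinuousLinearMap.id ℂ (Cm n) := by
      have h3 := fderiv_pi (𝕜 := ℂ) (x := e x₀)
        (φ := fun k z => D.sig (a k) (ix D x₀) (e.symm z))
        fun k => (D.sig_hol (a k) hi e he).differentiableAt
      refine h3.trans ?_
      ext v k
      rw [ContinuousLinearMap.pi_apply, D.fderiv_sig _ he hi, (ha k).2]
      rfl
    unfold SS AL at h
    rw [h2, h1.fderiv_eq, h1.eq_of_nhds] at h
    simp [mt_id] at h
  · have h1 : sg D ⟨a, ix D x₀, b, w, M⟩ x = sg D ⟨a, ix D x₀, b, w, 0⟩ x * Real.exp (-M) := by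
      unfold sg RR
      rw [mul_assoc, ← Real.exp_add]
      congr 2
      ring
    have h2 := hM (mem_range_self x)
    have h3 := Real.add_one_le_exp M
    rw [h1, Real.exp_neg, ← div_eq_mul_inv, div_lt_one (Real.exp_pos M)]
    linarith

end Vale.Agent.P284Z.O
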