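import Vale.Agent.P284Z.O.Top
import Vale.Agent.P284Z.O.Sec

/-!
# P284Z, block O: the covering, its charts and the polarisation
-/

open scoped Manifold ContDiff Topology ComplexOrder
open Filter Set Metric

noncomputable section

namespace Vale.Agent.P284Z.O

open Vale.Agent.P272.K Vale.Agent.P284.H894.G Vale.Agent.P284.H998

variable {n : ℕ} {X : Type} [TopologicalSpace X] [ChartedSpace (Cm n) X] {ι : Type} [Fintype ι]
  {E Γ : Type} [TopologicalSpace E] [Group Γ] [MulAction Γ E] {D : PJ n X ι} {p : E → X}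

lemma ov_at (hp : IsGalois Γ p) (P Q : Pc D p) (γ : Γ) {z : Cm n}
    (hb : γ • P.h.symm z ∈ Q.h.source) :
    At Q.e (p (P.h.symm z)) ∧ Q.h (γ • P.h.symm z) = Q.e (p (P.h.symm z)) ∧
      D.Z (p (P.h.symm z)) Q.i ≠ 0 := by
  have h := Q.ov _ hb
  rwa [p_smul hp] at h

lemma ov_ev (hp : IsGalois Γ p) (P Q : Pc D p) (γ : Γ) {z : Cm n} (hz : z ∈ ball P.c (4 * P.r))
    (hb : γ • P.h.symm z ∈ Q.h.source) :
    ∀ᶠ w in 𝓝 z, w ∈ ball P.c (4 * P.r) ∧ γ • P.h.symm w ∈ Q.h.source := by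
  have h1 : ContinuousAt (fun w => γ • P.h.symm w) z :=
    (hp.cont γ).continuousAt.comp (P.h.continuousAt_symm (by rwa [P.tgt]))
  exact (isOpen_ball.eventually_mem hz).and (h1.eventually (Q.h.open_source.mem_nhds hb))

variable [IsManifold 𝓘(ℂ, Cm n) ω X] (T : Dat n X ι)

lemma ov_hol (hp : IsGalois Γ p) (P Q : Pc D p) (γ : Γ) {z : Cm n} (hz : z ∈ ball P.c (4 * P.r))
    (hb : γ • P.h.symm z ∈ Q.h.source) : AnalyticAt ℂ (fun w => Q.h (γ • P.h.symm w)) z := by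
  have h1 := (transition (P.key hz).1 (ov_at hp P Q γ hb).1).analyticAt
  rw [(P.key hz).2.1] at h1
  refine h1.congr ?_
  filter_upwards [ov_ev hp P Q γ hz hb] with w hw
  rw [(ov_at hp P Q γ hw.2).2.1, (P.key hw.1).2.2.1]

lemma ov_ch (hw : IsCanonicalMetric T.w) (hp : IsGalois Γ p) (P Q : Pc D p) (γ : Γ) {z : Cm n}
    (hz : z ∈ ball P.c (4 * P.r)) (hb : γ • P.h.symm z ∈ Q.h.source) :
    ∃ g : Cm n → ℂ, AnalyticAt ℂ g z ∧ g z ≠ 0 ∧ ∀ᶠ w in 𝓝 z,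
      SS D T P.e P.i w = g w * SS D T Q.e Q.i (Q.h (γ • P.h.symm w)) ∧
      RR D T P.e P.i w = RR D T Q.e Q.i (Q.h (γ • P.h.symm w)) + Real.log (‖g w‖ ^ 2) := by
  obtain ⟨h1, h2, -, h3⟩ := P.key hz
  obtain ⟨h4, -, h5⟩ := ov_at hp P Q γ hb
  refine ⟨GG D T P.e P.i Q.e Q.i, h2 ▸ GG_an D T h1 h4 h3, h2 ▸ GG_ne D T h1 h4 h3 h5, ?_⟩
  filter_upwards [ov_ev hp P Q γ hz hb] with w hw'
  obtain ⟨k1, k2, -, k3⟩ := P.key hw'.1
  obtain ⟨k4, k5, k6⟩ := ov_at hp P Q γ hw'.2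
  have k7 := SS_ch D T k1 k4 k3 k6
  have k8 := RR_ch D T hw k1 k4 k3 k6
  rw [k2, ← k5] at k7 k8
  exact ⟨k7, k8⟩

omit [IsManifold 𝓘(ℂ, Cm n) ω X] in
lemma x_eq (P : Pc D p) {z : Cm n} (hz : z ∈ ball P.c (4 * P.r)) :
    (fun k => D.sig (T.a k) T.i₀ (p (P.h.symm z))) =
      (D.u P.e P.i T.i₀ z)⁻¹ • vv D T P.e P.i z := by
  obtain ⟨-, -, h1, h2⟩ := P.key hz
  funext k
  show _ = (D.Z (P.e.symm z) T.i₀ / D.Z (P.e.symm z) P.i)⁻¹ * D.sig (T.a k) P.i (P.e.symm z)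
  rw [h1, D.sig_trans (T.a k) (i' := T.i₀) h2, inv_div, mul_comm]

omit [IsManifold 𝓘(ℂ, Cm n) ω X] in
lemma x_pole (P : Pc D p) (f : Cm n → X) (hf : ∀ w, f w = p (P.h.symm w)) :
    ∃ Y : Cm n → Cm n, AnalyticOnNhd ℂ Y (ball P.c (4 * P.r)) ∧
      ∀ z ∈ ball P.c (4 * P.r), SS D T P.e P.i z ≠ 0 →
        Y z = SS D T P.e P.i z ^ 1 • fun k => D.sig (T.a k) T.i₀ (f z) := by
  refine ⟨fun z => ((mt (AL (vv D T P.e P.i) (D.u P.e P.i T.i₀) z)).det *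
    D.u P.e P.i T.i₀ z ^ T.b) • vv D T P.e P.i z, fun z hz => ?_, fun z hz h0 => ?_⟩
  · obtain ⟨h1, h2, -, h3⟩ := P.key hz
    have hv := vv_an D T h1 h3
    have hq := D.u_an h1 h3 T.i₀
    rw [h2] at hv hq
    exact ((an_det (an_AL hv hq)).mul (hq.pow _)).smul hv
  · have hq : D.u P.e P.i T.i₀ z ≠ 0 := fun h => h0 (by simp [SS, h])
    have h1 : SS D T P.e P.i z ^ 1 * (D.u P.e P.i T.i₀ z)⁻¹ =
        (mt (AL (vv D T P.e P.i) (D.u P.e P.i T.i₀) z)).det * D.u P.e P.i T.i₀ z ^ T.b := by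
      unfold SS
      rw [pow_one, pow_succ, mul_assoc, mul_assoc, mul_inv_cancel₀ hq, mul_one]
    rw [hf, x_eq T P hz, smul_smul, h1]

omit [IsManifold 𝓘(ℂ, Cm n) ω X] in
lemma dx_pole (P : Pc D p) (f : Cm n → X) (hf : ∀ w, f w = p (P.h.symm w)) :
    ∃ M : Cm n → (Cm n →L[ℂ] Cm n), AnalyticOnNhd ℂ M (ball P.c (4 * P.r)) ∧
      ∀ z ∈ ball P.c (4 * P.r), SS D T P.e P.i z ≠ 0 →
        (fderiv ℂ (fun w k => D.sig (T.a k) T.i₀ (f w)) z).comp (M z) =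
          SS D T P.e P.i z ^ 1 • ContinuousLinearMap.id ℂ (Cm n) := by
  refine ⟨fun z => D.u P.e P.i T.i₀ z ^ (T.b + 3) •
    cl (mt (AL (vv D T P.e P.i) (D.u P.e P.i T.i₀) z)).adjugate, fun z hz => ?_,
    fun z hz h0 => ?_⟩
  all_goals
    obtain ⟨h1, h2, -, h3⟩ := P.key hz
    have hv := vv_an D T h1 h3
    have hq := D.u_an h1 h3 T.i₀
    rw [h2] at hv hq
  · exact (hq.pow _).smul (an_cl (an_adj (an_AL hv hq)))
  · have hq0 : D.u P.e P.i T.i₀ z ≠ 0 := fun h => h0 (by simp [SS, h])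
    have h4 : (fun w k => D.sig (T.a k) T.i₀ (f w)) =ᶠ[𝓝 z]
        fun w => (D.u P.e P.i T.i₀ w)⁻¹ • vv D T P.e P.i w := by
      filter_upwards [isOpen_ball.mem_nhds hz] with w hw'
      rw [hf]
      exact x_eq T P hw'
    have h5 : ∀ d u : ℂ, u ≠ 0 → (u ^ 2)⁻¹ * u ^ (T.b + 3) * d = (d * u ^ (T.b + 1)) ^ 1 := by
      intro d u hu
      field_simp
      ring
    rw [h4.fderiv_eq, fderiv_quot hv.differentiableAt hq.differentiableAt hq0,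
      ContinuousLinearMap.smul_comp, ContinuousLinearMap.comp_smul, comp_adj, smul_smul,
      smul_smul, h5 _ _ hq0]
    rfl

variable [T2Space X] {I : Type} [Fintype I] (P : I → Pc D p)

/-- the charts of the covering -/
def mkCov (hp : IsGalois Γ p) (hw : IsCanonicalMetric T.w)
    (hpos : ∀ e x i, At e x → D.Z x i ≠ 0 → (cHess (RR D T e i) (e x)).PosDef)
    (hcov : ∀ x : X, ∃ a, ∃ z ∈ ball (P a).c (P a).r, x = p ((P a).h.symm z)) : Cov n Γ E where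
  I := I
  fin := inferInstance
  e a := (P a).h
  c a := (P a).c
  r a := (P a).r
  r_pos a := (P a).r_pos
  tgt a := (P a).tgt
  cont := hp.cont
  free := hp.free
  disj γ a y hy hy' := hp.free γ y ((P a).h.injOn hy' hy
    (by rw [((P a).ov _ hy).2.1, ((P a).ov _ hy').2.1, p_smul hp]))
  cover y := by
    obtain ⟨a, z, hz, h⟩ := hcov (p y)
    obtain ⟨γ, hγ⟩ := (hp.orb _ _).1 h.symm
    exact ⟨γ, a, z, hz, hγ.symm⟩
  hol γ a b z hz hb := ov_hol hp (P a) (P b) γ hz hb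
  proper := proper_of_gal hp
  ρ a := RR D T (P a).e (P a).i
  ρ_sm a z hz := by
    obtain ⟨h1, h2, -, h3⟩ := (P a).key hz
    exact h2 ▸ RR_sm D T hw h1 h3
  ρ_pos a z hz := by
    obtain ⟨h1, h2, -, h3⟩ := (P a).key hz
    exact h2 ▸ hpos _ _ _ h1 h3
  ρ_ch γ a b z hz hb := by
    obtain ⟨g, hg, h0, h⟩ := ov_ch T hw hp (P a) (P b) γ hz hb
    obtain ⟨k, hk, h1⟩ := log_re hg h0
    refine ⟨k, hk, ?_⟩
    filter_upwards [h, h1] with w h2 h3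
    rw [h2.2, h3]

/-- the polarisation -/
def mkPol (hp : IsGalois Γ p) (hw : IsCanonicalMetric T.w)
    (hpos : ∀ e x i, At e x → D.Z x i ≠ 0 → (cHess (RR D T e i) (e x)).PosDef)
    (hcov : ∀ x : X, ∃ a, ∃ z ∈ ball (P a).c (P a).r, x = p ((P a).h.symm z))
    (hne : ∀ x, ¬ ∀ᶠ y in 𝓝 x, sg D T y = 0) (hlt : ∀ x, sg D T x < 1) :
    Pol (mkCov T P hp hw hpos hcov) where
  s a := SS D T (P a).e (P a).i
  s_an a z hz := by
    obtain ⟨h1, h2, -, h3⟩ := (P a).key hz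
    exact h2 ▸ SS_an D T h1 h3
  s_ne a := by
    by_contra h
    push Not at h
    have hc : (P a).c ∈ ball (P a).c (4 * (P a).r) := mem_ball_self (by linarith [(P a).r_pos])
    obtain ⟨h1, h2, -, h3⟩ := (P a).key hc
    refine hne (p ((P a).h.symm (P a).c)) ?_
    have hU : (P a).e.source ∩ (P a).e ⁻¹' ball (P a).c (4 * (P a).r) ∈
        𝓝 (p ((P a).h.symm (P a).c)) :=
      ((P a).e.isOpen_inter_preimage isOpen_ball).mem_nhds ⟨h1.2, by rwa [mem_preimage, h2]⟩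
    filter_upwards [hU, (D.opn _).mem_nhds h3] with y hy hy'
    exact (sg_zero D T hw ⟨h1.1, hy.1⟩ hy').2 (h _ hy.2)
  s_ch γ a b z hz := ov_ch T hw hp (P a) (P b) γ hz.1 hz.2
  σ y := sg D T (p y)
  σ_eq γ a z hz := by
    obtain ⟨h1, h2, -, h3⟩ := (P a).key hz
    have h4 := sg_eq D T hw h1 h3
    rw [h2] at h4
    exact (congrArg (sg D T) (p_smul hp γ _)).trans h4
  σ_lt y := hlt _
  x y k := D.sig (T.a k) T.i₀ (p y)
  x_inv γ y := by simp only [p_smul hp]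
  N := 1
  x_pole a := x_pole T (P a) (fun w => p ((1 : Γ) • (P a).h.symm w)) fun w => by rw [one_smul]
  dx_pole a := dx_pole T (P a) (fun w => p ((1 : Γ) • (P a).h.symm w)) fun w => by rw [one_smul]

end Vale.Agent.P284Z.O

namespace Vale.Agent.P284Z

open O

/-- **O** -/
theorem stO : StO := by
  intro n X _ _ _ _ _ _ ι _ D x Γ _ _ f hf
  obtain ⟨E, tE, cE, aE, p, hp⟩ := exists_gal (n := n) X x Γ f hf
  obtain ⟨I, fI, P, hcov⟩ := exists_pcs D hp.cov.isLocalHomeomorph hp.surj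
  obtain ⟨T, hw, hpos, hne, hlt⟩ := exists_dat D
  refine ⟨fg_of_cov (mkCov T P hp hw hpos hcov), E, tE, t2_of_gal hp, cE, aE, p,
    mkCov T P hp hw hpos hcov, hp, fun a => ⟨(P a).e, fun y hy => ?_⟩,
    ⟨mkPol T P hp hw hpos hcov hne hlt⟩⟩
  exact ⟨((P a).ov y hy).1, ((P a).ov y hy).2.1⟩

end Vale.Agent.P284Z
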